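import Vale.Agent.P011LO.Main
import Vale.Agent.P011LW.Fin
import Vale.Agent.P011LV.YY
import Vale.Agent.P011LI.Main
import Vale.Agent.P011LS.Cov

/-!
P011 (helper30): the block `ISO2`, unconditionally.
-/

namespace Vale.Agent.P011LO

theorem iso2' : P011LX.ISO2 :=
  iso2 P011LW.pairg' P011LW.prs P011LW.loc P011LV.yy' P011LI.ind P011LS.xt'

end Vale.Agent.P011LO
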