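import Vale.Agent.P011LE.IF

/-!
P011 (helper30): the inputs of the block `ISO2`.
-/

open Matrix

namespace Vale.Agent.P011LO

open P011L P011LD P011LE

/-- PAIRG: standard pairs for a quadratic extension `k (α)`. -/
def PAIRG : Prop :=
  ∀ (k K : Type) [Field k] [NumberField k] [Field K] [CharZero K] [Algebra k K] [IsAlgClosure k K]
    (o : (K ≃ₐ[k] K) →* ℤˣ) (p : (K ≃ₐ[k] K) → GL I K) (α : K) (s : K ≃ₐ[k] K), DD o p → α ≠ 0 →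
    (∀ σ : K ≃ₐ[k] K, σ (α ^ 2) = α ^ 2) → s α ≠ α → (∀ w κ, Cj w κ → o κ ≠ 1 → κ α ≠ α) →
    (∃ X, Ext X ∧ ∀ σ, σ α = α → FixL o p σ X) →
    ∃ m b g l, Sim m ∧ SP0 o (tw o m p) α b g l ∧ Re o (tw o m p) α b g

/-- PRS: standard pairs with `b` positive at the real places. -/
def PRS : Prop :=
  ∀ (k K : Type) [Field k] [NumberField k] [Field K] [CharZero K] [Algebra k K] [IsAlgClosure k K]
    (o : (K ≃ₐ[k] K) →* ℤˣ) (p : (K ≃ₐ[k] K) → GL I K) (α : K) (s : K ≃ₐ[k] K), DD o p → α ≠ 0 →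
    (∀ σ : K ≃ₐ[k] K, σ (α ^ 2) = α ^ 2) → s α ≠ α → (∀ w κ, Cj w κ → o κ ≠ 1 → κ α ≠ α) →
    (∃ X, Ext X ∧ ∀ σ, σ α = α → FixL o p σ X) →
    (∀ w κ, Cj w κ → o κ ≠ 1 → ∃ X, Xt X ∧ 0 < (w (tr (X * ac o p κ X))).re) →
    ∃ m b g l, Sim m ∧ SP0 o (tw o m p) α b g l ∧ ∀ w κ, Cj w κ → o κ ≠ 1 → 0 < (w b).re

end Vale.Agent.P011LO
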