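import Vale.Agent.P011LO.IF
import Vale.Agent.P011LE.Gr
import Vale.Agent.P011LS.Ta
import Vale.Agent.P011LS.Geo
import Vale.Agent.P011LX.Oe
import Vale.Agent.P011LQ.Two
import Vale.Agent.P011.Arith.Schilling

/-!
P011 (helper30): the block `ISO2`.
-/

open Matrix

set_option linter.unusedSectionVars false

namespace Vale.Agent.P011LO

open P011L P011LD P011LE P011LS

section

variable {k K : Type} [Field k] [Field K] [Algebra k K] [CharZero K] {o : (K ≃ₐ[k] K) →* ℤˣ}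
  {p : (K ≃ₐ[k] K) → GL I K} {σ s : K ≃ₐ[k] K} {θ : K} {b : Kˣ} {g : (K ≃ₐ[k] K) → GL S K}
  {l : (K ≃ₐ[k] K) → K}

theorem ta_tw (m : GL I K) (X : R K) :
    ta o (tw o m p) σ (Ad (EU m) X) = Ad (EU m) (ta o p σ X) := by
  rw [ta, ta, sa_Ad, ← Ad_mul, ← Ad_mul, ← map_mul, ← map_mul, tw, inv_mul_cancel_right]

theorem fix_tw [IsAlgClosed K] {m : GL I K} (hm : Sim m) {P : (K ≃ₐ[k] K) → Prop}
    (h : ∃ X, Ext X ∧ ∀ σ, P σ → FixL o p σ X) :
    ∃ X, Ext X ∧ ∀ σ, P σ → FixL o (tw o m p) σ X := by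
  obtain ⟨X, a, b⟩ := h
  refine ⟨E.symm (Ad (EU m) (E X)), ext_iff_xt.2 ?_, fun σ c => (fixL_iff o).2 ?_⟩
  · rw [E.apply_symm_apply]
    exact (ext_iff_xt.1 a).Ad (EU_mem.2 hm)
  · rw [E.apply_symm_apply, ta_tw, (fixL_iff o).1 (b σ c)]

theorem tr_ta (X Y : R K) : tr (ta o p σ X * ta o p σ Y) = σ (tr (X * Y)) := by
  rw [ta, ta, ← Ad_mul', tr_Ad, sa, sa]
  split_ifs
  · rw [← map_mul, tr_cj]
    rfl
  · rw [neg_mul_neg, ← tp_mul, tr_tp, ← map_mul, tr_cj, tr_comm]
    rfl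

theorem ta_sq {X : R K} (h : X * X = 0) : ta o p σ X * ta o p σ X = 0 := by
  rw [ta, ← Ad_mul', sa_sq, h]
  split_ifs <;> simp [Ad_zero]

theorem hq_out (h : o σ ≠ 1) (h' : σ θ ≠ θ) : (hq o θ b σ).1 = !![b.1, 0; 0, -1] := by
  rw [hq, if_neg h, if_neg h', Units.val_mul]
  simp [jq, wq]

theorem e0_in (S : SP0 o p θ b g l) (h : o σ = 1) (h' : σ θ = θ) : ta o p σ e0 = e0 := by
  rw [ta, sa, if_pos h, cj_e0, Ad_eq, EU_val, S.eq, hq, if_pos h, if_pos h', e0, io_mul, io_mul]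
  simp

theorem e0_out (S : SP0 o p θ b g l) (h : o σ ≠ 1) (h' : σ θ ≠ θ) :
    ta o p σ e0 = (b.1)⁻¹ • f0 := by
  rw [ta, sa, if_neg h, cj_e0, tp_e0, Ad_eq, EU_val, S.eq, hq_out h h', f0, io_neg, io_smul, io_mul,
    io_mul]
  congr 1
  · simp
  · ext i j
    fin_cases i <;> fin_cases j <;> simp
  · simp

/-- A pair with trace six gives a rational extremal element. -/
theorem of_pair [IsAlgClosed K] [Algebra.IsAlgebraic ℚ K] (xt : XT) (h : DD o p) (hs : o s ≠ 1)
    (θ0 : θ ≠ 0) (hθ : ∀ σ : K ≃ₐ[k] K, ((o σ : ℤ) : K) * σ θ = θ) {e : R K} (e2 : e * e = 0)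
    (eg : e ∈ gl K) (ef : ∀ σ, o σ = 1 → ta o p σ e = e) (t : tr (e * ta o p s e) = 6) :
    ∃ X, Ext X ∧ ∀ σ, FixL o p σ X := by
  have T := sl_ta o h.pd ⊤
  have m := fun σ τ => T.mul σ trivial τ trivial e
  have fo : ∀ σ, o σ ≠ 1 → ta o p σ e = ta o p s e := fun σ a => by
    rw [← mul_inv_cancel_left s σ, m, ef]
    rcases Int.units_eq_one_or (o s) with c | c <;> rcases Int.units_eq_one_or (o σ) with d | d <;>
      simp_all
  have f2 : ta o p s e * ta o p s e = 0 := ta_sq e2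
  have fg : ta o p s e ∈ gl K := ta_gl o (h.sim s) eg
  have fi : ∀ σ, o σ = 1 → ta o p σ (ta o p s e) = ta o p s e := fun σ a => by
    rw [← m, fo _ (by rwa [map_mul, a, one_mul])]
  have fe : ∀ σ, o σ ≠ 1 → ta o p σ (ta o p s e) = e := fun σ a => by
    rw [← m, ef]
    rcases Int.units_eq_one_or (o s) with c | c <;> rcases Int.units_eq_one_or (o σ) with d | d <;>
      simp_all
  generalize ta o p s e = f at *
  have e0 : e ≠ 0 := fun c => by simp [c] at t
  have f0 : f ≠ 0 := fun c => by simp [c] at t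
  have x1 := xt K e ⟨e0, e2, eg⟩ f fg
  have x2 := xt K f ⟨f0, f2, fg⟩ e eg
  rw [tr_comm] at x2
  rw [t, div_self (by norm_num), one_smul, mul_assoc] at x1 x2
  have y3 (X : R K) : e * (e * X) = 0 := by rw [← mul_assoc, e2, zero_mul]
  have y4 (X : R K) : f * (f * X) = 0 := by rw [← mul_assoc, f2, zero_mul]
  have sb (σ) (X Y : R K) : ta o p σ (X - Y) = ta o p σ X - ta o p σ Y :=
    eq_sub_of_add_eq (by rw [← T.add σ trivial, sub_add_cancel])
  refine ⟨E.symm (θ • (e - f + (e * f - f * e))), ext_iff_xt.2 ?_, fun σ => (fixL_iff o).2 ?_⟩ <;>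
    rw [E.apply_symm_apply]
  · refine Xt.smul ⟨fun c => e0 ?_, ?_, add_mem (sub_mem eg fg) (gl_br eg fg)⟩ θ0
    · have := congrArg (fun X => e * X * e) c
      simpa [mul_add, add_mul, mul_sub, sub_mul, mul_assoc, e2, x1, y3] using this
    · simp only [mul_add, add_mul, mul_sub, sub_mul, mul_assoc, e2, f2, x1, x2, y3, y4,
        mul_zero]
      abel
  · rw [T.smul σ trivial, T.add σ trivial, sb, ta_br]
    have := hθ σ
    rcases Int.units_eq_one_or (o σ) with c | c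
    · rw [ef σ c, fi σ c, show σ θ = θ by simpa [c] using this]
    · have d : o σ ≠ 1 := by simp [c]
      rw [fo σ d, fe σ d, show σ θ = -θ by simpa [c, neg_eq_iff_eq_neg] using this]
      module

end

/-- A binary hermitian form which is positive at the real places represents one. -/
theorem rep1 {k : Type} [Field k] [NumberField k] (d a b : kˣ)
    (h : ∀ φ : k →+* ℝ, φ d < 0 → 0 < φ a) (hd : ∀ x y : k, x ^ 2 - d * y ^ 2 = 0 → x = 0 ∧ y = 0) :
    ∃ x y z t : k, (a : k) * (x ^ 2 - d * y ^ 2) + b * (z ^ 2 - d * t ^ 2) = 1 := by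
  obtain ⟨x, y, z, t, u, v, n, e⟩ := P011.Arith.Sch.ternary_isotropic d a b (-1) fun φ c =>
    ⟨fun r => by simpa using r.2.2.trans (by norm_num : φ ((-1 : kˣ) : k) < 0), fun r =>
      (h φ c).not_gt r.1⟩
  by_cases c : u ^ 2 - d * v ^ 2 = 0
  · have c' : (a : k) * (x ^ 2 - d * y ^ 2) ≠ 0 := fun r => n (by
      rw [r, c, mul_zero, zero_add, add_zero] at e
      obtain ⟨rfl, rfl⟩ := hd _ _ c
      obtain ⟨rfl, rfl⟩ := hd _ _ ((mul_eq_zero.1 r).resolve_left a.ne_zero)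
      obtain ⟨rfl, rfl⟩ := hd _ _ ((mul_eq_zero.1 e).resolve_left b.ne_zero)
      rfl)
    rw [c, mul_zero, add_zero] at e
    generalize hr : (a : k) * (x ^ 2 - d * y ^ 2) = r at c' e
    refine ⟨(r⁻¹ + 1) / 2 * x, (r⁻¹ + 1) / 2 * y, (r⁻¹ - 1) / 2 * z, (r⁻¹ - 1) / 2 * t, ?_⟩
    linear_combination ((r⁻¹ + 1) / 2) ^ 2 * hr + ((r⁻¹ - 1) / 2) ^ 2 * e + mul_inv_cancel₀ c'
  · generalize hr : u ^ 2 - d * v ^ 2 = r at c e
    refine ⟨(x * u - d * y * v) / r, (y * u - x * v) / r, (z * u - d * t * v) / r,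
      (t * u - z * v) / r, ?_⟩
    rw [Units.val_neg, Units.val_one] at e
    field_simp
    linear_combination r * e + (a * (x ^ 2 - d * y ^ 2) + b * (z ^ 2 - d * t ^ 2)) * hr

theorem iso2 (h1 : PAIRG) (h2 : PRS) (h3 : LOC) (h4 : YY) (h5 : IND) (xt : XT) : P011LX.ISO2 := by
  intro k K _ _ _ _ _ _ o p h ⟨s, hs⟩ nd hX
  have : IsAlgClosed K := IsAlgClosure.isAlgClosed k
  have : Algebra.IsAlgebraic ℚ K := Algebra.IsAlgebraic.trans ℚ k K
  obtain ⟨θ, θ0, hθ⟩ := h90_one (Γ := ⊤) (fun σ => ((o σ : ℤ) : K))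
    (fun σ _ τ _ => by simp) (h.pd.cont.imp fun σ _ a => by simp [a.1])
  replace hθ := fun σ => hθ σ trivial
  have θi : ∀ σ, o σ = 1 → σ θ = θ := fun σ a => by simpa [a] using hθ σ
  have θo : ∀ σ, o σ ≠ 1 → σ θ = -θ := fun σ a => by
    simpa [(Int.units_eq_one_or _).resolve_left a, neg_eq_iff_eq_neg] using hθ σ
  have θn : ∀ σ, o σ ≠ 1 → σ θ ≠ θ := fun σ a c => θ0 (self_eq_neg.1 (c.symm.trans (θo σ a)))
  have θe : ∀ σ, σ θ = θ ↔ o σ = 1 := fun σ => ⟨fun a => by_contra fun c => θn σ c a, θi σ⟩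
  have θ2 : ∀ σ : K ≃ₐ[k] K, σ (θ ^ 2) = θ ^ 2 := fun σ => by
    by_cases a : o σ = 1
    · rw [map_pow, θi σ a]
    · rw [map_pow, θo σ a, neg_sq]
  simp only [← θe] at hX
  obtain ⟨m, b, g, l, hm, S, re⟩ := h1 k K o p θ s h θ0 θ2 (θn s hs) (fun _ κ _ => θn κ) hX
  have h' := P011LX.dd_tw hm h
  obtain ⟨m', b, g, l, hm', S, re⟩ := h2 k K o _ θ s h' θ0 θ2 (θn s hs) (fun _ κ _ => θn κ)
    (fix_tw hm hX) fun w κ c a => by
      obtain ⟨z, e⟩ := h'.pd.mul κ κ
      obtain ⟨y, e'⟩ := h'.pd.cont.elim fun _ r => (r 1 trivial fun _ _ => rfl).2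
      rw [show κ * κ = 1 from AlgEquiv.ext fun x => w.injective (by
        rw [AlgEquiv.mul_apply, c, c, star_star]; rfl), e', smul_smul, st, if_neg a] at e
      obtain ⟨X, x1, x2⟩ := (h3 k K w κ _ (g κ) b (l κ) _ c (S.be κ) b.ne_zero e
        (hq_out (b := b) a (θn κ a) ▸ S.eq κ) (by
          rw [S.det, hq_out a (θn κ a)]; simp)).2.1 fun r => nd (by
          simpa [P011LX.tw_tw, P011LX.tw_one] using P011LX.dfn_tw m⁻¹ ((re w κ c a).2.2 r))
      refine ⟨X, x1, ?_⟩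
      rw [ac, lo, if_neg a, Ad_neg, mul_neg, map_neg, map_neg, Complex.neg_re]
      exact neg_pos.2 x2
  rw [P011LX.tw_tw] at S
  replace hm := P011LX.sim_mul hm' hm
  replace h' := P011LX.dd_tw hm h
  suffices ∃ X, Ext X ∧ ∀ σ, FixL o (tw o (m' * m) p) σ X by
    have := fix_tw (P := fun _ => True) (P011LX.sim_inv hm) (by simpa using this)
    rw [P011LX.tw_tw, inv_mul_cancel, P011LX.tw_one] at this
    simpa using this
  generalize tw o (m' * m) p = q at S h'
  obtain ⟨π, c, d, cm, -⟩ := h5 k K o q h'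
  obtain ⟨Y, y1, y2, y3, y4⟩ := h4 k K o q d θ b g l cm θe S s hs
  change ∀ σ, o σ = 1 → ta o q σ Y = Y at y3
  change tr (Y * ta o q s Y) ≠ 0 at y4
  have T := sl_ta o h'.pd ⊤
  have mu := fun σ τ => T.mul σ trivial τ trivial
  have oo : ∀ σ τ, o σ ≠ 1 → o τ ≠ 1 → o (σ * τ) = 1 := fun σ τ a c => by
    simp [(Int.units_eq_one_or _).resolve_left a, (Int.units_eq_one_or _).resolve_left c]
  have e1 := e0_out S hs (θn s hs)
  have e2 : ta o q s f0 = b.1 • e0 := by
    have := mu s s e0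
    rw [e0_in S (oo s s hs hs) (θi _ (oo s s hs hs)), e1, T.smul s trivial, map_inv₀, S.be] at this
    rw [this, smul_inv_smul₀ b.ne_zero]
  have e3 : ta o q s h0 = -h0 := by
    rw [h0_eq, ta_br, e1, e2, smul_mul_smul_comm, smul_mul_smul_comm, inv_mul_cancel₀ b.ne_zero,
      mul_inv_cancel₀ b.ne_zero, one_smul, one_smul, neg_sub]
  have y5 : Dg (-1) (ta o q s Y) := by
    have := ta_br (o := o) (p := q) (σ := s) h0 Y
    rw [y2, T.smul s trivial, e3] at this
    simp only [Dg, Int.cast_one, map_one, one_smul, Int.cast_neg, neg_smul] at this ⊢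
    conv_rhs => rw [this]
    noncomm_ring
  obtain ⟨β, hβ⟩ := fixed_top (k := k) (c := tr (Y * ta o q s Y) / 6) fun σ => by
    rw [map_div₀, map_ofNat, ← tr_ta (o := o) (p := q), ← mu]
    by_cases a : o σ = 1
    · rw [y3 σ a, ← mul_inv_cancel_left s (σ * s), mu, y3 _ (oo _ _ (by simpa using hs)
        (by rwa [map_mul, a, one_mul]))]
    · rw [y3 _ (oo _ _ a hs), tr_comm, ← mul_inv_cancel_left s σ, mu,
        y3 _ (oo _ _ (by simpa using hs) a)]
  obtain ⟨a, ha⟩ := fixed_top (k := k) (c := (b.1)⁻¹) fun σ => by rw [map_inv₀, S.be]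
  obtain ⟨δ, hδ⟩ := fixed_top (k := k) θ2
  have nz : ∀ {x : k} {y : K}, algebraMap k K x = y → y ≠ 0 → x ≠ 0 := fun e c r =>
    c (by rw [← e, r, map_zero])
  obtain ⟨x, y, z, t, e⟩ := rep1 (.mk0 δ (nz hδ (pow_ne_zero 2 θ0)))
    (.mk0 a (nz ha (inv_ne_zero b.ne_zero))) (.mk0 β (nz hβ (div_ne_zero y4 (by norm_num))))
    (fun φ c => by
      obtain ⟨w, κ, c1, c2⟩ := P011LQ.exists_cj (K := K) φ
      have r := re w κ c1 fun r => by
        have r1 := c1 θ
        rw [θi κ r] at r1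
        have r2 := congrArg Complex.re (c2 δ)
        rw [hδ, map_pow, sq, Complex.mul_re, Complex.conj_eq_iff_im.1 r1.symm,
          Complex.ofReal_re] at r2
        change φ δ < 0 at c
        nlinarith [mul_self_nonneg (w θ).re]
      have r2 := congrArg Complex.re (c2 a)
      rw [ha, map_inv₀, Complex.ofReal_re, Complex.inv_re] at r2
      exact r2 ▸ div_pos r (Complex.normSq_pos.2 ((map_ne_zero w).2 b.ne_zero)))
    fun x y c => by
      have r := congrArg (algebraMap k K) c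
      simp only [map_sub, map_mul, map_pow, Units.val_mk0, hδ, map_zero] at r
      by_cases y0 : y = 0
      · simpa [y0] using c
      · have : (algebraMap k K x - θ * algebraMap k K y) * (algebraMap k K x + θ * algebraMap k K y)
            = 0 := by linear_combination r
        have i := (map_ne_zero (algebraMap k K)).2 y0
        refine (θn s hs (mul_right_cancel₀ i ?_)).elim
        rcases mul_eq_zero.1 this with r | r <;> have r' := congrArg s r <;>
          simp only [map_sub, map_add, map_mul, AlgEquiv.commutes, map_zero] at r'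
        · linear_combination r - r'
        · linear_combination r' - r
  replace e := congrArg (algebraMap k K) e
  simp only [map_add, map_sub, map_mul, map_pow, Units.val_mk0, hδ, ha, hβ, map_one] at e
  refine of_pair xt h' hs θ0 hθ (e := (algebraMap k K x + θ * algebraMap k K y) • e0 +
    (algebraMap k K z + θ * algebraMap k K t) • Y) ?_
    (add_mem ((gl K).smul_mem _ xt_e0.mem) ((gl K).smul_mem _ y1.mem)) (fun σ c => ?_) ?_
  · simp only [mul_add, add_mul, smul_mul_smul_comm, P011LE.ee, y1.sq, (dg_e0.mul y2).van (by norm_num),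
      (y2.mul dg_e0).van (by norm_num), smul_zero, add_zero]
  · simp only [T.add σ trivial, T.smul σ trivial, e0_in S c (θi σ c), y3 σ c, map_add, map_mul,
      AlgEquiv.commutes, θi σ c]
  · simp only [T.add s trivial, T.smul s trivial, e1, map_add, map_mul, AlgEquiv.commutes, θo s hs,
      smul_smul]
    simp only [mul_add (_ : R K), add_mul (_ : R K), smul_mul_smul_comm, map_add, map_smul, tr_ef,
      (dg_e0.mul y5).tr (by norm_num), (y2.mul dg_f0).tr (by norm_num), smul_eq_mul]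
    linear_combination 6 * e

end Vale.Agent.P011LO
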